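import Vale.Agent.P070ZC.Sip
import Vale.Agent.P129B.Real

/-!
# Unitaries from two dense families with the same inner products
-/

set_option linter.unusedSectionVars false

namespace Vale.Agent.P070Z72

open Vale.Agent.P129B

universe v

variable {N : Type v} [ZM N]
  {R K : Type*} [Field R] [LinearOrder R] [IsStrictOrderedRing R] [Coded N R] [RF N R]
  [Field K] [Algebra R K] [Nm K R] [KA R K] [Coded N K] [KF N R K]
  {L : Type*} [AddCommGroup L] [Module K L] [Nm L R] [NA R K L] [Coded N L] [NS N R K L]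
  {M : Type*} [AddCommGroup M] [Module K M] [Nm M R] [NA R K M] [Coded N M] [NS N R K M]
  {I : Type*} [Coded N I] [Tot N I] {A : Set I}
  {ipL : L → L → K} {ipM : M → M → K}

theorem le_of_forall_mul {x C : R} (hC : 0 ≤ C) (h : ∀ ε : R, 0 < ε → x ≤ ε * C) : x ≤ 0 := by
  refine le_of_forall_pos_le_add fun ε hε => ?_
  have h1 := h (ε / (C + 1)) (by positivity)
  have h2 : ε / (C + 1) * C ≤ ε := by
    rw [div_mul_eq_mul_div, div_le_iff₀ (by positivity)]; nlinarith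
  linarith

/-- a vector orthogonal to a dense family vanishes -/
theorem eq_zero_of_dense (hM : SIP ipM nm) {g : I → M}
    (dg : ∀ y, ∀ ε : R, 0 < ε → ∃ a ∈ A, nm (g a - y) < ε) {y : M}
    (h : ∀ a ∈ A, ipM (g a) y = 0) : y = 0 := by
  have h1 : nm y ^ 2 ≤ 0 := le_of_forall_mul (nm_nonneg y) fun ε hε => by
    obtain ⟨a, ha, h2⟩ := dg y ε hε
    have h3 : ipM y y = -ipM (g a - y) y := by rw [hM.sub_left, h a ha]; ring
    have h4 := hM.cs (g a - y) y
    rw [← nm_neg, ← h3, hM.self, KA.nm_ofR_of_nonneg (sq_nonneg _)] at h4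
    exact h4.trans (mul_le_mul_of_nonneg_right h2.le (nm_nonneg y))
  exact nm_eq_zero.1 (pow_eq_zero_iff two_ne_zero |>.1 (le_antisymm h1 (sq_nonneg _)))

theorem eq_of_dense (hM : SIP ipM nm) {g : I → M}
    (dg : ∀ y, ∀ ε : R, 0 < ε → ∃ a ∈ A, nm (g a - y) < ε) {y y' : M}
    (h : ∀ a ∈ A, ipM (g a) y = ipM (g a) y') : y = y' :=
  sub_eq_zero.1 (eq_zero_of_dense hM dg fun a ha => by rw [hM.sub, h a ha, sub_self])

theorem nm_sub_eq (hL : SIP ipL nm) (hM : SIP ipM nm) {f : I → L} {g : I → M}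
    (hfg : ∀ a ∈ A, ∀ b ∈ A, ipL (f a) (f b) = ipM (g a) (g b)) {a b : I} (ha : a ∈ A)
    (hb : b ∈ A) : nm (g a - g b) = nm (f a - f b) := by
  refine (sq_eq_sq₀ (nm_nonneg _) (nm_nonneg _)).1 ?_
  rw [hL.sq, hM.sq]
  simp only [hL.sub, hL.sub_left, hM.sub, hM.sub_left, hfg a ha a ha, hfg a ha b hb,
    hfg b hb a ha, hfg b hb b hb]

/-- simultaneous approximation -/
theorem exists_sim [Cpl N R M] [Intl N A] (hL : SIP ipL nm) (hM : SIP ipM nm) {f : I → L}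
    {g : I → M} (hf : DefF N f) (hg : DefF N g)
    (hfg : ∀ a ∈ A, ∀ b ∈ A, ipL (f a) (f b) = ipM (g a) (g b))
    (df : ∀ x, ∀ ε : R, 0 < ε → ∃ a ∈ A, nm (f a - x) < ε) (x : L) :
    ∃ y : M, ∀ ε : R, 0 < ε → ∃ a ∈ A, nm (f a - x) < ε ∧ nm (g a - y) < ε := by
  obtain ⟨s, hs, h⟩ := exists_intl_choiceT (N := N)
    (R := fun (n : NN N) (a : I) => a ∈ A ∧ nm (f a - x) < hp R n) (by fun_prop)
    fun n => df x _ (hp_pos n)
  obtain ⟨y, hy⟩ := Cpl.lim (N := N) (fun n => g (s n)) (DefF.toIntl (by fun_prop)) fun ε hε => by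
    obtain ⟨n, hn⟩ := exists_hp_lt N (half_pos hε)
    refine ⟨n, fun k l hk hl => ?_⟩
    rw [nm_sub_eq hL hM hfg (h k).1 (h l).1]
    have h1 := nm_triangle (f (s k)) x (f (s l))
    rw [nm_sub_rev x] at h1
    linarith [(h k).2, (h l).2, hn k hk, hn l hl]
  refine ⟨y, fun ε hε => ?_⟩
  obtain ⟨n, hn⟩ := exists_hp_lt N hε
  obtain ⟨m, hm⟩ := hy ε hε
  exact ⟨s (max n m), (h _).1, (h _).2.trans (hn _ (le_max_left _ _)), hm _ (le_max_right _ _)⟩

theorem ip_eq_of_sim (hL : SIP ipL nm) (hM : SIP ipM nm) {f : I → L} {g : I → M} {x x' : L}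
    {y y' : M} (h : ∀ ε : R, 0 < ε → ∃ a ∈ A, nm (f a - x) < ε ∧ nm (g a - y) < ε)
    (h' : ∀ a ∈ A, ipM (g a) y' = ipL (f a) x') : ipM y y' = ipL x x' := by
  refine sub_eq_zero.1 (nm_le_zero_iff.1 (le_of_forall_mul (C := nm x' + nm y')
    (add_nonneg (nm_nonneg _) (nm_nonneg _)) fun ε hε => ?_))
  obtain ⟨a, ha, h1, h2⟩ := h ε hε
  have h3 : ipM y y' - ipL x x' = ipL (f a - x) x' - ipM (g a - y) y' := by
    rw [hL.sub_left, hM.sub_left, h' a ha]; ring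
  rw [h3]
  refine (nm_sub_le _ _).trans ?_
  have h4 := (hL.cs (f a - x) x').trans (mul_le_mul_of_nonneg_right h1.le (nm_nonneg _))
  have h5 := (hM.cs (g a - y) y').trans (mul_le_mul_of_nonneg_right h2.le (nm_nonneg _))
  linarith

/-- Two dense families with the same inner products are related by a unitary. -/
theorem exists_unitary [Cpl N R L] [Cpl N R M] [Intl N A] (hL : SIP ipL nm) (hM : SIP ipM nm)
    (dL : DefF N (fun p : L × L => ipL p.1 p.2)) (dM : DefF N (fun p : M × M => ipM p.1 p.2))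
    {f : I → L} {g : I → M} (hf : DefF N f) (hg : DefF N g)
    (hfg : ∀ a ∈ A, ∀ b ∈ A, ipL (f a) (f b) = ipM (g a) (g b))
    (df : ∀ x, ∀ ε : R, 0 < ε → ∃ a ∈ A, nm (f a - x) < ε)
    (dg : ∀ y, ∀ ε : R, 0 < ε → ∃ a ∈ A, nm (g a - y) < ε) :
    ∃ W : L →ₗ[K] M, DefF N (fun x => W x) ∧ Function.Surjective W ∧
      (∀ x y, ipM (W x) (W y) = ipL x y) ∧ ∀ a ∈ A, ∀ x, ipM (g a) (W x) = ipL (f a) x := by
  have key : ∀ {x : L} {y : M},
      (∀ ε : R, 0 < ε → ∃ a ∈ A, nm (f a - x) < ε ∧ nm (g a - y) < ε) →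
      ∀ a ∈ A, ipM (g a) y = ipL (f a) x := fun h a ha => by
    rw [← hM.conj, ← hL.conj, ip_eq_of_sim hL hM h fun b hb => (hfg b hb a ha).symm]
  have d1 : DefF N (fun p : (L × M) × I => ipM (g p.2) p.1.2) := dM.comp2 (by fun_prop) (by fun_prop)
  have d2 : DefF N (fun p : (L × M) × I => ipL (f p.2) p.1.1) := dL.comp2 (by fun_prop) (by fun_prop)
  have : Nonempty M := ⟨0⟩
  obtain ⟨W, hW, h⟩ := exists_defF_of_unique (N := N)
    (R := fun (x : L) (y : M) => ∀ a ∈ A, ipM (g a) y = ipL (f a) x)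
    (DefF.ball (DefF.const A) (d1.eq d2))
    (fun x _ => (exists_sim hL hM hf hg hfg df x).imp fun y hy => ⟨inferInstance, key hy⟩)
    fun x y y' _ _ _ h1 h2 => eq_of_dense hM dg fun a ha => (h1 a ha).trans (h2 a ha).symm
  have h1 : ∀ x, ∀ a ∈ A, ipM (g a) (W x) = ipL (f a) x := fun x => h x inferInstance
  refine ⟨⟨⟨W, fun x y => eq_of_dense hM dg fun a ha => ?_⟩, fun c x =>
    eq_of_dense hM dg fun a ha => ?_⟩, hW, fun y => ?_, fun x y => ?_, fun a ha x => h1 x a ha⟩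
  · rw [hM.add, h1 _ a ha, h1 _ a ha, h1 _ a ha, hL.add]
  · rw [RingHom.id_apply, hM.smul, h1 _ a ha, h1 _ a ha, hL.smul]
  · obtain ⟨x, hx⟩ := exists_sim hM hL hg hf (fun a ha b hb => (hfg a ha b hb).symm) dg y
    refine ⟨x, eq_of_dense hM dg fun a ha => (h1 x a ha).trans (key (fun ε hε => ?_) a ha).symm⟩
    obtain ⟨b, hb, h2, h3⟩ := hx ε hε
    exact ⟨b, hb, h3, h2⟩
  · obtain ⟨z, hz⟩ := exists_sim hL hM hf hg hfg df x
    have h2 : W x = z := eq_of_dense hM dg fun a ha => (h1 x a ha).trans (key hz a ha).symm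
    change ipM (W x) (W y) = _
    rw [h2]
    exact ip_eq_of_sim hL hM hz (h1 y)

end Vale.Agent.P070Z72
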