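import Vale.Agent.P129BZ.Scal
import Vale.Agent.P129B.Real

/-!
# Finite nets and the pigeonhole principle inside a model
-/

namespace Vale.Agent.P070Z72

open Vale.Agent.P129B

universe v

variable {N : Type v} [ZM N]

/-- pigeonhole principle -/
theorem pigeon (j : NN N → NN N) (hj : DefF N j) (n : NN N) (h : ∀ m, j m < n) :
    ∃ m m', m ≠ m' ∧ j m = j m' := by
  have key : ∀ n : NN N, ∀ m0 : NN N, (∀ m, m0 ≤ m → j m < n) →
      ∃ m m', m ≠ m' ∧ j m = j m' := by
    intro n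
    refine NN.ind (P := fun n => ∀ m0 : NN N, (∀ m, m0 ≤ m → j m < n) →
      ∃ m m' : NN N, m ≠ m' ∧ j m = j m') (by fun_prop) ?_ ?_ n
    · intro m0 h0
      exact absurd (h0 m0 le_rfl) (NN.not_lt_zero' _)
    · intro k ih m0 h0
      by_cases h1 : ∃ m, m0 ≤ m ∧ j m = k
      · obtain ⟨m, hm, hk⟩ := h1
        by_cases h2 : ∃ m', m < m' ∧ j m' = k
        · obtain ⟨m', h3, h4⟩ := h2
          exact ⟨m, m', h3.ne, hk.trans h4.symm⟩
        · refine ih (m + 1) fun m' hm' => ?_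
          have h3 : m < m' := NN.add_one_le_iff.1 hm'
          rcases NN.lt_add_one_cases (h0 m' (hm.trans h3.le)) with h4 | h4
          · exact h4
          · exact absurd ⟨m', h3, h4⟩ h2
      · refine ih m0 fun m hm => ?_
        rcases NN.lt_add_one_cases (h0 m hm) with h4 | h4
        · exact h4
        · exact absurd ⟨m, hm, h4⟩ h1
  exact key n 0 fun m _ => h m

/-- a square of values is listed by one finite sequence -/
theorem exists_list2 {E : Type*} [Coded N E] [Tot N E] (g : NN N → NN N → E)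
    (hg : DefF N (fun p : NN N × NN N => g p.1 p.2)) (M k : NN N) :
    ∃ n : NN N, ∃ f : NN N → E, Intl N f ∧ ∀ a, a < k → ∀ b, b < M → ∃ i, i < n ∧ f i = g a b := by
  classical
  refine NN.ind (P := fun k => ∃ n : NN N, ∃ f : NN N → E, Intl N f ∧
    ∀ a, a < k → ∀ b, b < M → ∃ i, i < n ∧ app f i = g a b) (by fun_prop) ?_ ?_ k
  · exact ⟨0, fun _ => g 0 0, inferInstance, fun a ha => absurd ha (NN.not_lt_zero' _)⟩
  · rintro k ⟨n, f, hf, h⟩
    refine ⟨n + M, fun i => if i < n then f i else g k (i - n), DefF.toIntl (by fun_prop),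
      fun a ha b hb => ?_⟩
    rcases NN.lt_add_one_cases ha with h1 | rfl
    · obtain ⟨i, hi, e⟩ := h a h1 b hb
      exact ⟨i, hi.trans_le le_self_add, (if_pos hi).trans e⟩
    · refine ⟨n + b, by gcongr, (if_neg (not_lt.2 le_self_add)).trans ?_⟩
      rw [add_tsub_cancel_left]

variable {R K E : Type*} [Field R] [LinearOrder R] [IsStrictOrderedRing R] [Coded N R] [RF N R]
  [Field K] [Algebra R K] [Nm K R] [KA R K] [Coded N K] [KF N R K]
  [AddCommGroup E] [Module K E] [Nm E R] [NA R K E] [Coded N E] [NS N R K E]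

variable (N) in
/-- bounded multiples of a vector are totally bounded -/
theorem net_disc (v : E) (C : R) {ε : R} (hε : 0 < ε) :
    ∃ n : NN N, ∃ f : NN N → E, Intl N f ∧
      ∀ c : K, nm c ≤ C → ∃ i, i < n ∧ nm (c • v - f i) < ε := by
  have hv := nm_nonneg v
  obtain ⟨d, hd, hd2⟩ : ∃ d : R, 0 < d ∧ 2 * d * nm v < ε := by
    refine ⟨ε / (2 * (nm v + 1)), by positivity, ?_⟩
    rw [show 2 * (ε / (2 * (nm v + 1))) * nm v = ε * (nm v / (nm v + 1)) by field_simp]
    exact mul_lt_of_lt_one_right hε ((div_lt_one (by positivity)).2 (by linarith))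
  obtain ⟨M, hM⟩ := exists_rc_gt N (2 * C / d)
  have h1 : ∀ t : R, |t| ≤ C → ∃ a : NN N, a < M ∧ |t - (rc R a * d - C)| ≤ d := by
    intro t ht
    obtain ⟨h2, h3⟩ := abs_le.1 ht
    obtain ⟨a, h4, h5⟩ := exists_floor N (x := (t + C) / d) (div_nonneg (by linarith) hd.le)
    refine ⟨a, lt_of_rc_lt (R := R) (h4.trans_lt (lt_of_le_of_lt ?_ hM)), ?_⟩
    · gcongr; linarith
    · rw [le_div_iff₀ hd] at h4
      rw [div_lt_iff₀ hd] at h5
      rw [abs_le]; constructor <;> nlinarith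
  obtain ⟨n, f, hf, h⟩ := exists_list2 (N := N) (fun a b : NN N =>
    (algebraMap R K (rc R a * d - C) + algebraMap R K (rc R b * d - C) * KA.I) • v)
    (by fun_prop) M M
  refine ⟨n, f, hf, fun c hc => ?_⟩
  obtain ⟨a, ha, h2⟩ := h1 _ ((KA.abs_re_le_nm c).trans hc)
  obtain ⟨b, hb, h3⟩ := h1 _ ((KA.abs_im_le_nm c).trans hc)
  obtain ⟨i, hi, e⟩ := h a ha b hb
  refine ⟨i, hi, ?_⟩
  rw [e, ← sub_smul, nm_smul]
  refine lt_of_le_of_lt (mul_le_mul_of_nonneg_right ?_ hv) hd2
  have h4 : c - (algebraMap R K (rc R a * d - C) + algebraMap R K (rc R b * d - C) * KA.I) =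
      algebraMap R K (KA.re c - (rc R a * d - C)) +
        algebraMap R K (KA.im c - (rc R b * d - C)) * KA.I := by
    conv_lhs => rw [← KA.re_add_im c]
    simp only [map_sub]; ring
  rw [h4]
  refine (nm_add_le _ _).trans ?_
  rw [KA.nm_mul, KA.nm_ofR, KA.nm_ofR]
  have h5 := KA.nm_I_le (K := K)
  have h6 := abs_nonneg (KA.im c - (rc R b * d - C))
  nlinarith

end Vale.Agent.P070Z72
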