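import Vale.Agent.P070ZA.Hs

/-!
# Closed subspaces of Hilbert spaces of a model as Hilbert spaces
-/

set_option linter.unusedSectionVars false

namespace Vale.Agent.P070Z72

open Vale.Agent.P129B Vale.Agent.P070Z

universe v

variable {N : Type v} [ZM N]
  {R K : Type*} [Nm K R] [Field R] [LinearOrder R] [IsStrictOrderedRing R] [Field K] [Algebra R K]
  [KA R K] [StarRing K] [CX R K] [Coded N R] [RF N R] [Coded N K] [KF N R K]
  {H : Type*} [AddCommGroup H] [Module K H] [Nm H R] [Ip H K] [IA R K H] [Coded N H] [HS N R K H]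

/-- internal closed subspaces -/
structure CSub (N : Type v) [ZM N] (K H : Type*) {R : Type*} [Field R] [LinearOrder R] [Field K]
    [AddCommGroup H] [Module K H] [Nm H R] [Coded N H] where
  sub : Submodule K H
  intl : Intl N (sub : Set H)
  cld : Cld (sub : Set H)

namespace CSub

/-- the closed subspace given by a set -/
def of {V : Set H} (h : IsISub N K V) (c : Cld V) : CSub N K H where
  sub := ⟨⟨⟨V, fun hx hy => h.add _ hx _ hy⟩, h.zero⟩, fun a _ hx => h.smul a _ hx⟩
  intl := h.intl
  cld := c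

/-- the underlying type -/
def T (V : CSub N K H) : Type _ := V.sub

variable (V : CSub N K H)

instance : AddCommGroup V.T := inferInstanceAs (AddCommGroup V.sub)
instance : Module K V.T := inferInstanceAs (Module K V.sub)

/-- the inclusion -/
def j : V.T →ₗ[K] H := V.sub.subtype

theorem j_inj : Function.Injective V.j := Subtype.val_injective

theorem j_mem (x : V.T) : V.j x ∈ V.sub := Subtype.prop x

/-- a vector of the subspace -/
def mk' (x : H) (h : x ∈ V.sub) : V.T := Subtype.mk x h

@[simp] theorem j_mk' (x : H) (h : x ∈ V.sub) : V.j (V.mk' x h) = x := rfl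

instance : Nm V.T R := ⟨fun x => nm (V.j x)⟩
instance : Ip V.T K := ⟨fun x y => ip (V.j x) (V.j y)⟩

theorem nm_j (x : V.T) : nm (V.j x) = nm x := rfl

theorem ip_j (x y : V.T) : ip (V.j x) (V.j y) = ip x y := rfl

instance : IA R K V.T where
  nm_add x y := by rw [← nm_j, map_add]; exact nm_add_le _ _
  nm_smul c x := by rw [← nm_j, map_smul]; exact nm_smul _ _
  eq_zero_of_nm x h := V.j_inj (by rw [map_zero]; exact nm_eq_zero.1 h)
  ip_add x y z := by rw [← ip_j, map_add]; exact ip_add_right _ _ _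
  ip_smul c x y := by rw [← ip_j, map_smul]; exact ip_smul_right _ _ _
  ip_star x y := star_ip (V.j x) (V.j y)
  ip_self x := ip_self (V.j x)

noncomputable instance : Coded N V.T :=
  Coded.pull (α := H) V.j (fun _ _ _ _ h => V.j_inj h) (by
    have := V.intl
    have h1 : DefF N (fun a : H => a ∈ (V.sub : Set H)) := by fun_prop
    exact h1.congrP fun a _ => ⟨fun h => ⟨V.mk' a h, rfl⟩, fun ⟨s, h⟩ => h ▸ V.j_mem s⟩)

instance intl_T (x : V.T) : Intl N x := ⟨(inferInstance : Intl N (V.j x))⟩

instance : Tot N V.T where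
  car := ⟨code N (V.sub : Set H), fun _ => (mem_code_set V.intl).trans
    ⟨fun ⟨a, ha, e⟩ => ⟨V.mk' a ha, inferInstance, e⟩, fun ⟨a, _, e⟩ => ⟨V.j a, V.j_mem a, e⟩⟩⟩
  all := fun x => V.intl_T x

theorem defF_j : DefF N (fun x : V.T => V.j x) :=
  ⟨fun _ _ => inferInstance, (DefF.id (N := N) (α := V.T)).2⟩

variable {V} {α : Type*} [Coded N α]

@[fun_prop] theorem DefF.csubJ {f : α → V.T} (hf : DefF N f) : DefF N (fun a => V.j (f a)) :=
  V.defF_j.comp hf

theorem defF_T {f : α → V.T} (hf : DefF N (fun a => V.j (f a))) : DefF N f :=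
  ⟨fun _ _ => inferInstance, hf.2⟩

variable (V)

instance : HS N R K V.T where
  defAdd := ⟨defF_T (by simp only [map_add]; fun_prop)⟩
  defSMul := ⟨defF_T (by simp only [map_smul]; fun_prop)⟩
  defNm := ⟨by simp only [← nm_j]; fun_prop⟩
  lim s hs h := by
    obtain ⟨x, hx⟩ := exists_tt (N := N) (s := fun n => V.j (s n)) (by fun_prop) fun ε hε => by
      obtain ⟨n, hn⟩ := h ε hε
      exact ⟨n, fun k l hk hl => by rw [← map_sub]; exact hn k l hk hl⟩
    refine ⟨V.mk' x (V.cld.mem_of_tt hx fun k => V.j_mem _), fun ε hε => ?_⟩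
    obtain ⟨n, hn⟩ := hx ε hε
    exact ⟨n, fun k hk => by rw [← nm_j, map_sub]; exact hn k hk⟩
  defIp := by simp only [← ip_j]; fun_prop

end CSub

end Vale.Agent.P070Z72
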