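import Vale.Agent.P070ZA.Op
import Vale.Agent.P070ZS5.Dense
import Vale.Agent.P070Z72.Net
import Vale.Agent.P070Z72.Int
import Vale.Agent.P070Z72.Sub

/-!
# Irreducible representations, states, compact operators, cyclic representations
-/

set_option linter.unusedSectionVars false

namespace Vale.Agent.P070Z72

open Vale.Agent.P129B Vale.Agent.P070Z

universe v

variable {N : Type v} [ZM N]
  {R K : Type*} [Nm K R] [Field R] [LinearOrder R] [IsStrictOrderedRing R] [Field K] [Algebra R K]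
  [KA R K] [StarRing K] [CX R K] [Coded N R] [RF N R] [Coded N K] [KF N R K]
  {H : Type*} [AddCommGroup H] [Module K H] [Nm H R] [Ip H K] [IA R K H] [Coded N H] [HS N R K H]
  {L : Type*} [AddCommGroup L] [Module K L] [Nm L R] [Ip L K] [IA R K L] [Coded N L] [HS N R K L]
  {M : Type*} [AddCommGroup M] [Module K M] [Nm M R] [Ip M K] [IA R K M] [Coded N M] [HS N R K M]

include R K

theorem sip : SIP (ip : L → L → K) nm where
  add := ip_add_right
  smul := ip_smul_right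
  conj x y := by rw [← CX.star_eq, star_ip]
  nonneg := nm_nonneg
  sq x := (re_ip_self x).symm

/-- internal unital star subalgebras -/
structure SA (A : Set (Op N K H)) : Prop where
  intl : Intl N A
  one : (1 : Op N K H) ∈ A
  add : ∀ a ∈ A, ∀ b ∈ A, a + b ∈ A
  smul : ∀ c : K, ∀ a ∈ A, c • a ∈ A
  mul : ∀ a ∈ A, ∀ b ∈ A, a * b ∈ A
  star : ∀ a ∈ A, star a ∈ A

/-- definable maps which are star homomorphisms on `A` -/
structure Hm (A : Set (Op N K H)) (π : Op N K H → Op N K L) : Prop where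
  defF : DefF N π
  add : ∀ a ∈ A, ∀ b ∈ A, π (a + b) = π a + π b
  smul : ∀ c : K, ∀ a ∈ A, π (c • a) = c • π a
  mul : ∀ a ∈ A, ∀ b ∈ A, π (a * b) = π a * π b
  star : ∀ a ∈ A, π (star a) = star (π a)

/-- no internal closed invariant subspaces but the trivial ones -/
def Ir (A : Set (Op N K H)) (π : Op N K H → Op N K L) : Prop :=
  ∀ V : Set L, IsISub N K V → Cld V → (∀ a ∈ A, ∀ x ∈ V, π a x ∈ V) →
    (∀ x ∈ V, x = 0) ∨ ∀ x, x ∈ V

/-- compact operators -/
def Cp (T : Op N K L) : Prop :=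
  ∀ ε : R, 0 < ε → ∃ n : NN N, ∃ w : NN N → L, Intl N w ∧
    ∀ x, nm x ≤ 1 → ∃ i, i < n ∧ nm (T x - w i) < ε

variable {A : Set (Op N K H)} {π : Op N K H → Op N K L} {σ : Op N K H → Op N K M}

theorem SA.zero (hA : SA A) : (0 : Op N K H) ∈ A := by
  have := hA.smul 0 1 hA.one
  rwa [zero_smul] at this

theorem Hm.zero (hA : SA A) (hπ : Hm A π) : π 0 = 0 := by
  have := hπ.smul 0 1 hA.one
  rwa [zero_smul, zero_smul] at this

theorem Hm.mul_ap (hπ : Hm A π) {a b : Op N K H} (ha : a ∈ A) (hb : b ∈ A) (x : L) :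
    π (a * b) x = π a (π b x) := by rw [hπ.mul a ha b hb, Op.mul_apply]

theorem Hm.ip_ap (hA : SA A) (hπ : Hm A π) {a b : Op N K H} (ha : a ∈ A) (hb : b ∈ A) (x y : L) :
    ip (π a x) (π b y) = ip x (π (Star.star a * b) y) := by
  rw [hπ.mul_ap (hA.star a ha) hb, hπ.star a ha, ip_star_right]

/-- An irreducible representation of a unital algebra is unital. -/
theorem Hm.map_one (hA : SA A) (hπ : Hm A π) (hne : ∃ a ∈ A, π a ≠ 0) (hi : Ir A π) :
    π 1 = 1 := by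
  have h1 : ∀ b ∈ A, ∀ x, π 1 (π b x) = π b x := fun b hb x => by
    rw [← hπ.mul_ap hA.one hb, one_mul]
  rcases hi {x | (π 1 - 1) x = 0} ⟨intl_setOfT (by fun_prop), map_zero _,
      fun x hx y hy => by
        rw [Set.mem_ofPred_eq] at hx hy ⊢
        rw [map_add, hx, hy, add_zero],
      fun c x hx => by
        rw [Set.mem_ofPred_eq] at hx ⊢
        rw [map_smul, hx, smul_zero]⟩ (cld_eq_zero (Op.lip _))
      (fun a ha x _ => sub_eq_zero.2 (h1 a ha x)) with h | h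
  · obtain ⟨a, ha, h2⟩ := hne
    refine absurd (Op.ext fun x => ?_) h2
    have h3 : π 1 x = 0 := h _ (sub_eq_zero.2 (h1 1 hA.one x))
    rw [← mul_one a, hπ.mul_ap ha hA.one, h3, map_zero, Op.zero_apply]
  · exact Op.ext fun x => sub_eq_zero.1 (h x)

/-- the orbit of a vector -/
def orb (A : Set (Op N K H)) (π : Op N K H → Op N K L) (z : L) : Set L := (fun a => π a z) '' A

theorem isISub_orb (hA : SA A) (hπ : Hm A π) (z : L) : IsISub N K (orb A π z) where
  intl := by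
    have := hA.intl
    have := hπ.defF
    exact intl_image (by fun_prop) A
  zero := ⟨0, hA.zero, by simp only [hπ.zero hA, Op.zero_apply]⟩
  add := by
    rintro _ ⟨a, ha, rfl⟩ _ ⟨b, hb, rfl⟩
    exact ⟨a + b, hA.add a ha b hb, by simp only [hπ.add a ha b hb, Op.add_apply]⟩
  smul := by
    rintro c _ ⟨a, ha, rfl⟩
    exact ⟨c • a, hA.smul c a ha, by simp only [hπ.smul c a ha, Op.smul_apply]⟩

theorem orb_inv (hA : SA A) (hπ : Hm A π) (z : L) {a : Op N K H} (ha : a ∈ A) {x : L}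
    (hx : x ∈ icl (orb A π z)) : π a x ∈ icl (orb A π z) :=
  map_icl (π a).lip (by
    rintro _ ⟨b, hb, rfl⟩
    exact sub_icl _ ⟨a * b, hA.mul a ha b hb, hπ.mul_ap ha hb z⟩) hx

theorem dense_orbit (hA : SA A) (hπ : Hm A π) (h1 : π 1 = 1) (hi : Ir A π) {z : L} (hz : z ≠ 0)
    (y : L) (ε : R) (hε : 0 < ε) : ∃ a ∈ A, nm (π a z - y) < ε := by
  rcases hi _ (S5.isISub_icl (isISub_orb hA hπ z)) (cld_icl _)
    (fun a ha x hx => orb_inv hA hπ z ha hx) with h | h
  · exact absurd (h z (sub_icl _ ⟨1, hA.one, by simp only [h1, Op.one_apply]⟩)) hz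
  · obtain ⟨_, ⟨a, ha, rfl⟩, h2⟩ := h y ε hε
    exact ⟨a, ha, by rwa [nm_sub_rev]⟩

/-- Cyclic representations with the same state are unitarily equivalent. -/
theorem unitEquiv_of_dense (hA : SA A) (hπ : Hm A π) (hσ : Hm A σ) {z : L} {w : M}
    (dz : ∀ y, ∀ ε : R, 0 < ε → ∃ a ∈ A, nm (π a z - y) < ε)
    (dw : ∀ y, ∀ ε : R, 0 < ε → ∃ a ∈ A, nm (σ a w - y) < ε)
    (h : ∀ b ∈ A, ip z (π b z) = ip w (σ b w)) :
    ∃ W : L →ₗ[K] M, DefF N (fun x => W x) ∧ Function.Surjective W ∧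
      (∀ x y, ip (W x) (W y) = ip x y) ∧ ∀ a ∈ A, ∀ x, W (π a x) = σ a (W x) := by
  have := hA.intl
  have := hπ.defF
  have := hσ.defF
  obtain ⟨W, h1, h2, h3, h4⟩ := exists_unitary (N := N) (A := A) (sip (L := L)) (sip (L := M))
    HS.defIp HS.defIp (f := fun a => π a z) (g := fun a => σ a w) (by fun_prop) (by fun_prop)
    (fun a ha b hb => by
      rw [hπ.ip_ap hA ha hb, hσ.ip_ap hA ha hb, h _ (hA.mul _ (hA.star a ha) b hb)]) dz dw
  refine ⟨W, h1, h2, h3, fun a ha x => eq_of_dense sip dw fun b hb => ?_⟩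
  have h5 := hA.star a ha
  rw [h4 b hb, ← ip_star_left, ← ip_star_left, ← hπ.star a ha, ← hσ.star a ha,
    ← hπ.mul_ap h5 hb, ← hσ.mul_ap h5 hb, h4 _ (hA.mul _ h5 b hb)]

theorem unitEquiv_of_state (hA : SA A) (hπ : Hm A π) (hσ : Hm A σ) (h1 : π 1 = 1) (h2 : σ 1 = 1)
    (hi : Ir A π) (hj : Ir A σ) {z : L} {w : M} (hz : z ≠ 0) (hw : w ≠ 0)
    (h : ∀ b ∈ A, ip z (π b z) = ip w (σ b w)) :
    ∃ W : L →ₗ[K] M, DefF N (fun x => W x) ∧ Function.Surjective W ∧
      (∀ x y, ip (W x) (W y) = ip x y) ∧ ∀ a ∈ A, ∀ x, W (π a x) = σ a (W x) :=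
  unitEquiv_of_dense hA hπ hσ (dense_orbit hA hπ h1 hi hz) (dense_orbit hA hσ h2 hj hw) h

variable (N) in
/-- Rank one operators are compact. -/
theorem exists_rankOne (u w : L) : ∃ T : Op N K L, (∀ x, T x = ip u x • w) ∧ Cp T := by
  obtain ⟨T, hT⟩ := exists_op (N := N) (fun x : L => ip u x • w) (fun x : L => ip w x • u)
    (by fun_prop) (by fun_prop)
    (fun x y => by rw [ip_smul_left, ip_smul_right, star_ip, mul_comm]) (nm u * nm w) fun x => by
      rw [nm_smul, mul_right_comm]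
      exact mul_le_mul_of_nonneg_right (nm_ip_le u x) (nm_nonneg w)
  refine ⟨T, hT, fun ε hε => ?_⟩
  obtain ⟨n, f, hf, h⟩ := net_disc N (K := K) w (nm u) hε
  refine ⟨n, f, hf, fun x hx => ?_⟩
  rw [hT]
  exact h _ ((nm_ip_le u x).trans (mul_le_of_le_one_right (nm_nonneg u) hx))

theorem ir_of_cp (h : ∀ T : Op N K L, Cp T → ∃ a ∈ A, π a = T) : Ir A π := fun V _ _ hV => by
  by_cases h1 : ∀ x ∈ V, x = 0
  · exact Or.inl h1
  · push Not at h1
    obtain ⟨x, hx, h0⟩ := h1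
    refine Or.inr fun y => ?_
    obtain ⟨T, hT, hc⟩ := exists_rankOne N x ((ip x x)⁻¹ • y)
    obtain ⟨a, ha, rfl⟩ := h T hc
    have h2 := hV a ha x hx
    rwa [hT, smul_inv_smul₀ (ip_self_eq_zero.not.2 h0)] at h2

/-- The identity of a space with an orthonormal sequence is not compact. -/
theorem not_cp_one {v : NN N → L} (hv : DefF N v) (h1 : ∀ n, nm (v n) = 1)
    (h0 : ∀ m n, m ≠ n → ip (v m) (v n) = 0) : ¬ Cp (1 : Op N K L) := fun h => by
  obtain ⟨n, w, hw, h2⟩ := h (1 / 2) (by norm_num)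
  obtain ⟨j, hj, h3⟩ := exists_intl_choiceT (N := N)
    (R := fun m i : NN N => i < n ∧ nm (v m - w i) < 1 / 2) (by fun_prop)
    fun m => h2 (v m) (h1 m).le
  obtain ⟨m, m', h4, h5⟩ := pigeon j (DefF.ofIntl j) n fun m => (h3 m).1
  have h6 := nm_triangle (v m) (w (j m)) (v m')
  have h7 := (h3 m').2
  rw [nm_sub_rev, ← h5] at h7
  have h8 := nm_sub_sq (v m) (v m')
  rw [h0 m m' h4, map_zero, h1, h1] at h8
  have h9 : nm (v m - v m') < 1 := by linarith [(h3 m).2]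
  nlinarith [nm_nonneg (v m - v m')]

/-- An algebra whose irreducible representations carry a state with infinite-dimensional cyclic
space is not an algebra of compact operators. -/
theorem not_compacts (hA : SA A) (hπ : Hm A π) (inj : Set.InjOn π A) {x : H} (hx : nm x = 1)
    (hst : π 1 = 1 → (∃ y : L, y ≠ 0) → Ir A π →
      ∃ z : L, ∀ b ∈ A, ip z (π b z) = ip x (b x))
    {e : NN N → Op N K H} (he : DefF N e) (heA : ∀ n, e n ∈ A) (h1 : ∀ n, nm (e n x) = 1)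
    (h0 : ∀ m n, m ≠ n → ip (e m x) (e n x) = 0) :
    ¬ ∀ T : Op N K L, Cp T ↔ ∃ a ∈ A, π a = T := fun h => by
  have hi : Ir A π := ir_of_cp fun T hT => (h T).1 hT
  have hne : π 1 ≠ 0 := fun h2 => by
    have h3 : (1 : Op N K H) = 0 := inj hA.one hA.zero (h2.trans (hπ.zero hA).symm)
    have h4 : (1 : Op N K H) x = 0 := by rw [h3, Op.zero_apply]
    rw [Op.one_apply] at h4
    rw [h4, nm_zero] at hx
    exact zero_ne_one hx
  have h2 := hπ.map_one hA ⟨1, hA.one, hne⟩ hi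
  obtain ⟨z, hz⟩ := hst h2 (by
    by_contra h3
    push Not at h3
    exact hne (Op.ext fun y => h3 _)) hi
  have h3 : ∀ m n, ip (π (e m) z) (π (e n) z) = ip (e m x) (e n x) := fun m n => by
    rw [hπ.ip_ap hA (heA m) (heA n), hz _ (hA.mul _ (hA.star _ (heA m)) _ (heA n)),
      Op.mul_apply, ip_star_right]
  have := hπ.defF
  refine not_cp_one (v := fun n => π (e n) z) (by fun_prop) (fun n => ?_)
    (fun m n hmn => (h3 m n).trans (h0 m n hmn)) ((h 1).2 ⟨1, hA.one, h2⟩)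
  refine (sq_eq_sq₀ (nm_nonneg _) zero_le_one).1 ?_
  rw [← re_ip_self, h3, re_ip_self, h1]

/-- The restriction of a representation to an invariant closed subspace. -/
theorem exists_restrict (hA : SA A) (hπ : Hm A π) (V : CSub N K L)
    (hV : ∀ a ∈ A, ∀ x ∈ V.sub, π a x ∈ V.sub) :
    ∃ ρ : Op N K H → Op N K V.T, Hm A ρ ∧ (∀ a ∈ A, ∀ y, V.j (ρ a y) = π a (V.j y)) ∧
      ∀ a ∈ A, nm (ρ a) ≤ nm (π a) := by
  have := hA.intl
  have := hπ.defF
  have : Nonempty (Op N K V.T) := ⟨0⟩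
  obtain ⟨ρ, h1, h2⟩ := exists_defF_choice (N := N)
    (R := fun (a : Op N K H) (u : Op N K V.T) => a ∈ A → ∀ y, V.j (u y) = π a (V.j y))
    (by fun_prop) fun a _ => by
      by_cases ha : a ∈ A
      · obtain ⟨u, hu⟩ := exists_op (N := N)
          (fun y : V.T => V.mk' (π a (V.j y)) (hV a ha _ (V.j_mem y)))
          (fun y : V.T => V.mk' (π (star a) (V.j y)) (hV _ (hA.star a ha) _ (V.j_mem y)))
          (CSub.defF_T (by simp only [CSub.j_mk']; fun_prop))
          (CSub.defF_T (by simp only [CSub.j_mk']; fun_prop))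
          (fun x y => by
            rw [← V.ip_j, ← V.ip_j, CSub.j_mk', CSub.j_mk', hπ.star a ha, ip_star_left])
          (nm (π a)) fun x => (π a).le_opNorm (V.j x)
        exact ⟨u, inferInstance, fun _ y => by rw [hu, CSub.j_mk']⟩
      · exact ⟨0, inferInstance, fun h => absurd h ha⟩
  have h3 : ∀ a ∈ A, ∀ y, V.j (ρ a y) = π a (V.j y) := fun a ha => h2 a inferInstance ha
  refine ⟨ρ, ⟨h1, fun a ha b hb => Op.ext fun y => V.j_inj ?_,
    fun c a ha => Op.ext fun y => V.j_inj ?_, fun a ha b hb => Op.ext fun y => V.j_inj ?_,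
    fun a ha => eq_star fun x y => ?_⟩, h3,
    fun a ha => Op.opNorm_le (nm_nonneg _) fun y => ?_⟩
  · rw [h3 _ (hA.add a ha b hb), hπ.add a ha b hb, Op.add_apply, Op.add_apply, map_add, h3 a ha,
      h3 b hb]
  · rw [h3 _ (hA.smul c a ha), hπ.smul c a ha, Op.smul_apply, Op.smul_apply, map_smul, h3 a ha]
  · rw [h3 _ (hA.mul a ha b hb), hπ.mul_ap ha hb, Op.mul_apply, h3 a ha, h3 b hb]
  · rw [← V.ip_j, ← V.ip_j, h3 _ (hA.star a ha), h3 a ha, hπ.star a ha, ip_star_left]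
  · rw [← V.nm_j, h3 a ha]
    exact (π a).le_opNorm _

/-- The cyclic representation generated by a vector. -/
theorem exists_cyclic (hA : SA A) (hπ : Hm A π) (h1 : π 1 = 1) (ξ : L) :
    ∃ (V : CSub N K L) (ρ : Op N K H → Op N K V.T) (x : V.T), Hm A ρ ∧ ρ 1 = 1 ∧ V.j x = ξ ∧
      (∀ a ∈ A, ∀ y, V.j (ρ a y) = π a (V.j y)) ∧ (∀ a ∈ A, nm (ρ a) ≤ nm (π a)) ∧
      ∀ y, ∀ ε : R, 0 < ε → ∃ a ∈ A, nm (ρ a x - y) < ε := by
  let V : CSub N K L := CSub.of (S5.isISub_icl (isISub_orb hA hπ ξ)) (cld_icl _)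
  obtain ⟨ρ, h2, h3, h4⟩ := exists_restrict hA hπ V fun a ha x hx => orb_inv hA hπ ξ ha hx
  have h5 : ξ ∈ V.sub := sub_icl _ ⟨1, hA.one, by simp only [h1, Op.one_apply]⟩
  refine ⟨V, ρ, V.mk' ξ h5, h2, Op.ext fun y => V.j_inj ?_, rfl, h3, h4, fun y ε hε => ?_⟩
  · rw [h3 1 hA.one, h1, Op.one_apply, Op.one_apply]
  · obtain ⟨_, ⟨a, ha, rfl⟩, h6⟩ := V.j_mem y ε hε
    refine ⟨a, ha, ?_⟩
    rw [← V.nm_j, map_sub, h3 a ha, nm_sub_rev]
    exact h6

end Vale.Agent.P070Z72
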