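import Vale.Agent.P070ZI.Main
import Vale.Agent.P070ZA.Defs
import Vale.Agent.P070Z72.End

/-!
# The counterexample from a state seen in every irreducible representation
-/

set_option linter.unusedSectionVars false

namespace Vale.Agent.P070Z72

open Vale.Agent.P129B Vale.Agent.P070Z Vale.Agent.P070ZT
open Vale.Agent.P070ZI (Main NRp)

universe v

variable {N : Type v} [ZM N]
  {R K : Type*} [Nm K R] [Field R] [LinearOrder R] [IsStrictOrderedRing R] [Field K] [Algebra R K]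
  [KA R K] [StarRing K] [CX R K] [Coded N R] [RF N R] [Coded N K] [KF N R K]

include R K

section

variable {H : Type v} [AddCommGroup H] [Module K H] [Nm H R] [Ip H K] [IA R K H] [Coded N H]
  [HS N R K H]

/-- the state of `x` is a vector state in every irreducible representation -/
def Seen (A : Set (Op N K H)) (c : Op N K H → K) : Prop :=
  ∀ (L : Type v) [AddCommGroup L] [Module K L] [Nm L R] [Ip L K] [IA R K L] [Coded N L]
    [HS N R K L] (π : Op N K H → Op N K L), Hm A π → π 1 = 1 → (∃ y : L, y ≠ 0) → Ir A π →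
    ∃ z : L, ∀ b ∈ A, ip z (π b z) = c b

theorem main_of {A : Set (Op N K H)} (hA : SA A) (hc : Cld A) {x : H} (hx : nm x = 1)
    (hst : Seen A fun b => ip x (b x))
    {e : NN N → Op N K H} (he : DefF N e) (heA : ∀ n, e n ∈ A) (h1 : ∀ n, nm (e n x) = 1)
    (h0 : ∀ m n, m ≠ n → ip (e m x) (e n x) = 0) : Main N R K := by
  have hx0 : x ≠ 0 := nm_pos_iff.1 (hx ▸ one_pos)
  have key : ∀ (L : Type v) [AddCommGroup L] [Module K L] [Nm L R] [Ip L K] [IA R K L] [Coded N L]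
      [HS N R K L] (π : Op N K H → Op N K L), NRp A π → P070ZI.Irr A π →
      Hm A π ∧ π 1 = 1 ∧ ∃ z : L, z ≠ 0 ∧ ∀ b ∈ A, ip z (π b z) = ip x (b x) := by
    intro L _ _ _ _ _ _ _ π hπ hi
    have h2 : Hm A π := ⟨hπ.defF, hπ.add, hπ.smul, hπ.mul, hπ.star⟩
    obtain ⟨a, ha, y, hy⟩ := hi.1
    have h3 := h2.map_one hA ⟨a, ha, fun h => hy (by rw [h, Op.zero_apply])⟩ hi.2
    obtain ⟨z, hz⟩ := hst L π h2 h3 ⟨_, hy⟩ hi.2
    refine ⟨h2, h3, z, fun h => hx0 ?_, hz⟩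
    have h4 : ip z (π 1 z) = ip x x := hz 1 hA.one
    rw [h, ip_zero_left] at h4
    exact ip_self_eq_zero.1 h4.symm
  refine ⟨H, _, _, _, _, inferInstance, _, inferInstance, A,
    ⟨hA.intl, hA.zero, hA.add, hA.smul, hA.mul, hA.star, hc⟩, ⟨⟨1, hA.one, x, hx0⟩, ?_⟩, ?_⟩
  · intro L _ _ _ _ _ _ _ M _ _ _ _ _ _ _ π σ hπ hσ hi hj
    obtain ⟨a1, a2, z, a3, a4⟩ := key L π hπ hi
    obtain ⟨b1, b2, w, b3, b4⟩ := key M σ hσ hj
    obtain ⟨W, c1, c2, c3, c4⟩ := unitEquiv_of_state hA a1 b1 a2 b2 hi.2 hj.2 a3 b3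
      fun b hb => (a4 b hb).trans (b4 b hb).symm
    exact ⟨W, c1, map_add W, map_smul W, c2, c3, c4⟩
  · rintro ⟨L, _, _, _, _, _, _, _, π, hπ, inj, h⟩
    have h2 : Hm A π := ⟨hπ.defF, hπ.add, hπ.smul, hπ.mul, hπ.star⟩
    exact not_compacts hA h2 inj hx (hst L π h2) he heA h1 h0 h

end

variable {H : Type*} [AddCommGroup H] [Module K H] [Nm H R] [Ip H K] [IA R K H] [Coded N H]
  [HS N R K H]
  {L : Type*} [AddCommGroup L] [Module K L] [Nm L R] [Ip L K] [IA R K L] [Coded N L] [HS N R K L]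

/-- The closure of a star subalgebra is a star subalgebra. -/
theorem SA.cs_icl {A : Set (Op N K H)} (hA : SA A) : CS N K (icl A) := by
  have := hA.intl
  refine ⟨inferInstance, sub_icl _ hA.one, fun a ha b hb => ?_, fun a ha b hb => ?_,
    fun c a ha => ?_, fun a ha => ?_, fun _ hx => cld_icl A hx⟩
  · refine map_icl (f := fun a => a + b) (C := 1) (fun x y => ?_) (fun a ha => ?_) ha
    · rw [add_sub_add_right_eq_sub, one_mul]
    · refine map_icl (f := fun b => a + b) (C := 1) (fun x y => ?_)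
        (fun b hb => sub_icl _ (hA.add a ha b hb)) hb
      rw [add_sub_add_left_eq_sub, one_mul]
  · exact map_icl (f := fun a => a * b) (lip_mul_right b) (fun a ha =>
      map_icl (f := fun b => a * b) (lip_mul_left a)
        (fun b hb => sub_icl _ (hA.mul a ha b hb)) hb) ha
  · refine map_icl (f := fun a : Op N K H => c • a) (C := nm c) (fun x y => ?_)
      (fun a ha => sub_icl _ (hA.smul c a ha)) ha
    rw [← smul_sub, nm_smul]
  · refine map_icl (f := fun a : Op N K H => Star.star a) (C := 1) (fun x y => ?_)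
      (fun a ha => sub_icl _ (hA.star a ha)) ha
    rw [← star_sub, Op.nm_star, one_mul]

theorem sa_of_cs {A : Set (Op N K H)} (hA : CS N K A) : SA A :=
  ⟨hA.intl, hA.one, hA.add, hA.smul, hA.mul, hA.star⟩

theorem hm_of_rp {A : Set (Op N K H)} {π : Op N K H → Op N K L} (h : Rp A π) : Hm A π :=
  ⟨h.defF, h.add, h.smul, h.mul, h.star⟩

theorem Hm.rp {A : Set (Op N K H)} {π : Op N K H → Op N K L} (h : Hm A π) : Rp A π :=
  ⟨h.defF, h.add, h.smul, h.mul, h.star⟩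

theorem Hm.sa_image {A : Set (Op N K H)} {ρ : Op N K H → Op N K L} (hA : SA A) (hρ : Hm A ρ)
    (h1 : ρ 1 = 1) : SA (ρ '' A) where
  intl := by
    have := hA.intl
    exact intl_image hρ.defF A
  one := ⟨1, hA.one, h1⟩
  add := by
    rintro _ ⟨a, ha, rfl⟩ _ ⟨b, hb, rfl⟩
    exact ⟨_, hA.add a ha b hb, hρ.add a ha b hb⟩
  smul := by
    rintro c _ ⟨a, ha, rfl⟩
    exact ⟨_, hA.smul c a ha, hρ.smul c a ha⟩
  mul := by
    rintro _ ⟨a, ha, rfl⟩ _ ⟨b, hb, rfl⟩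
    exact ⟨_, hA.mul a ha b hb, hρ.mul a ha b hb⟩
  star := by
    rintro _ ⟨a, ha, rfl⟩
    exact ⟨_, hA.star a ha, hρ.star a ha⟩

variable (N R K) in
/-- Unital representations of closed star subalgebras are contractive. -/
def Contr : Prop :=
  ∀ (H : Type v) [AddCommGroup H] [Module K H] [Nm H R] [Ip H K] [IA R K H] [Coded N H]
    [HS N R K H] (L : Type v) [AddCommGroup L] [Module K L] [Nm L R] [Ip L K] [IA R K L]
    [Coded N L] [HS N R K L] (A : Set (Op N K H)) (π : Op N K H → Op N K L),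
    CS N K A → Rp A π → π 1 = 1 → ∀ a ∈ A, ∀ z : L, nm (π a z) ≤ nm a * nm z

/-- `π` is bounded by the cyclic representation of `ξ` -/
def Fac {M : Type*} [AddCommGroup M] [Module K M] [Nm M R] [Ip M K] [Coded N M]
    (A : Set (Op N K H)) (P : Op N K H → Op N K M) (ξ : M) (π : Op N K H → Op N K L) : Prop :=
  ∀ a ∈ A, ∀ C : R, 0 ≤ C → (∀ b ∈ A, nm (P a (P b ξ)) ≤ C * nm (P b ξ)) →
    ∀ y, nm (π a y) ≤ C * nm y

/-- The counterexample is the closure of the image of `A` in the cyclic representation. -/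
theorem main_of_limit (hcon : Contr N R K) {M : Type v} [AddCommGroup M] [Module K M] [Nm M R]
    [Ip M K] [IA R K M] [Coded N M] [HS N R K M] {A : Set (Op N K H)} (hA : CS N K A)
    {P : Op N K H → Op N K M} (hP : URp A P) {ξ : M} (hξ : nm ξ = 1)
    (hst : ∀ (L : Type v) [AddCommGroup L] [Module K L] [Nm L R] [Ip L K] [IA R K L] [Coded N L]
      [HS N R K L] (π : Op N K H → Op N K L), URp A π → (∃ y : L, y ≠ 0) → Irr A π →
      Fac A P ξ π → ∃ z : L, ∀ b ∈ A, ip z (π b z) = ip ξ (P b ξ))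
    {e : NN N → Op N K H} (he : DefF N e) (heA : ∀ n, e n ∈ A) (h1 : ∀ n, nm (P (e n) ξ) = 1)
    (h0 : ∀ m n, m ≠ n → ip (P (e m) ξ) (P (e n) ξ) = 0) : Main N R K := by
  have hS := sa_of_cs hA
  obtain ⟨V, ρ, x, hρ, ρ1, hx, hj, hb, hd⟩ := exists_cyclic hS (hm_of_rp hP.toRp) hP.one ξ
  have hB := (hρ.sa_image hS ρ1).cs_icl
  have hm : ∀ a ∈ A, ρ a ∈ icl (ρ '' A) := fun a ha => sub_icl _ ⟨a, ha, rfl⟩
  have hjx : ∀ a ∈ A, V.j (ρ a x) = P a ξ := fun a ha => by rw [hj a ha, hx]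
  have dρ := hρ.defF
  refine main_of (sa_of_cs hB) hB.cld (x := x) (by rw [← V.nm_j, hx, hξ]) ?_
    (e := fun n => ρ (e n)) (by fun_prop) (fun n => hm _ (heA n))
    (fun n => by rw [← V.nm_j, hjx _ (heA n), h1])
    fun m n h => by rw [← V.ip_j, hjx _ (heA m), hjx _ (heA n), h0 m n h]
  intro L _ _ _ _ _ _ _ σ hσ σ1 hL hi
  have hσ' : URp (icl (ρ '' A)) σ := ⟨hσ.rp, σ1, hcon _ _ _ σ hB hσ.rp σ1⟩
  have lip : ∀ (z : L) {T : Set L}, Cld T → (∀ a ∈ A, σ (ρ a) z ∈ T) →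
      ∀ b ∈ icl (ρ '' A), σ b z ∈ T := fun z T hT h b hb => hT fun ε hε => by
    have h2 : 0 < nm z + 1 := by linarith [nm_nonneg z]
    obtain ⟨_, ⟨a, ha, rfl⟩, h3⟩ := hb (ε / (nm z + 1)) (div_pos hε h2)
    refine ⟨_, h a ha, (hσ'.lip hB hb (hm a ha) z).trans_lt ?_⟩
    have h4 := (lt_div_iff₀ h2).1 h3
    nlinarith [nm_nonneg (b - ρ a)]
  obtain ⟨z, hz⟩ := hst L (fun a => σ (ρ a)) ⟨⟨hσ.defF.comp dρ,
      fun a ha b hb => by rw [hρ.add a ha b hb, hσ.add _ (hm a ha) _ (hm b hb)],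
      fun c a ha => by rw [hρ.smul c a ha, hσ.smul c _ (hm a ha)],
      fun a ha b hb => by rw [hρ.mul a ha b hb, hσ.mul _ (hm a ha) _ (hm b hb)],
      fun a ha => by rw [hρ.star a ha, hσ.star _ (hm a ha)]⟩, by rw [ρ1, σ1],
      fun a ha z => (hσ'.bd _ (hm a ha) z).trans (mul_le_mul_of_nonneg_right
        ((hb a ha).trans (hP.nm_le ha)) (nm_nonneg z))⟩ hL
    (fun T h2 h3 h4 => hi T h2 h3 fun b hb y hy => lip y h3 (fun a ha => h4 a ha y hy) b hb)
    (fun a ha C hC h y => by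
      refine (hσ'.bd _ (hm a ha) y).trans (mul_le_mul_of_nonneg_right
        (Op.opNorm_le hC fun w => le_of_forall_pos_le_add fun ε hε => ?_) (nm_nonneg y))
      have h2 : 0 < nm (ρ a) + C + 1 := by linarith [nm_nonneg (ρ a)]
      obtain ⟨b, hb, h3⟩ := hd w (ε / (nm (ρ a) + C + 1)) (div_pos hε h2)
      have h4 := (lt_div_iff₀ h2).1 h3
      have h5 := h b hb
      rw [← hjx b hb, ← hj a ha, V.nm_j, V.nm_j] at h5
      have h6 := (ρ a).lip w (ρ b x)
      rw [nm_sub_rev w] at h6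
      have h7 := mul_le_mul_of_nonneg_left (nm_le_add_sub (ρ b x) w) hC
      have h8 := nm_le_add_sub (ρ a w) (ρ a (ρ b x))
      nlinarith [nm_nonneg (ρ b x - w)])
  refine ⟨z, fun b hb => sub_eq_zero.1 (nm_le_zero_iff.1 (le_of_forall_mul
    (C := nm z * nm z + nm x * nm x) (by nlinarith) fun ε hε => ?_))⟩
  obtain ⟨_, ⟨a, ha, rfl⟩, h3⟩ := hb ε hε
  have h4 : ip z (σ b z) - ip x (b x) = ip z (σ b z - σ (ρ a) z) - ip x (b x - ρ a x) := by
    have h5 : ip z (σ (ρ a) z) = ip x (ρ a x) := by rw [hz a ha, ← V.ip_j, hjx a ha, hx]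
    rw [ip_sub_right, ip_sub_right, h5]; ring
  rw [h4]
  refine (nm_sub_le _ _).trans ?_
  have h5 := (nm_ip_le z _).trans (mul_le_mul_of_nonneg_left
    (hσ'.lip hB hb (hm a ha) z) (nm_nonneg z))
  have h6 := (nm_ip_le x _).trans (mul_le_mul_of_nonneg_left (Op.lip' x b (ρ a)) (nm_nonneg x))
  have h7 := mul_le_mul_of_nonneg_right h3.le (mul_self_nonneg (nm z))
  have h8 := mul_le_mul_of_nonneg_right h3.le (mul_self_nonneg (nm x))
  nlinarith

/-- The same from a kernel element `k`. -/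
theorem main_of_ker (hcon : Contr N R K) {M : Type v} [AddCommGroup M] [Module K M] [Nm M R]
    [Ip M K] [IA R K M] [Coded N M] [HS N R K M] {A : Set (Op N K H)} (hA : CS N K A)
    {P : Op N K H → Op N K M} (hP : URp A P) {ξ : M} (hξ : nm ξ = 1) {k : Op N K H}
    (hk : P k ξ = 0) (hD : Det P k A)
    (hdet : ∀ (L : Type v) [AddCommGroup L] [Module K L] [Nm L R] [Ip L K] [IA R K L] [Coded N L]
      [HS N R K L] (π : Op N K H → Op N K L), URp A π → ∀ a ∈ A, ∀ c : K, DetAt P k a c →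
      DetAt π k a c)
    (hker : ∀ (L : Type v) [AddCommGroup L] [Module K L] [Nm L R] [Ip L K] [IA R K L] [Coded N L]
      [HS N R K L] (π : Op N K H → Op N K L), URp A π → (∃ y : L, y ≠ 0) → Irr A π →
      Fac A P ξ π → ∃ y : L, y ≠ 0 ∧ π k y = 0)
    {e : NN N → Op N K H} (he : DefF N e) (heA : ∀ n, e n ∈ A) (h1 : ∀ n, nm (P (e n) ξ) = 1)
    (h0 : ∀ m n, m ≠ n → ip (P (e m) ξ) (P (e n) ξ) = 0) : Main N R K := by
  refine main_of_limit hcon hA hP hξ ?_ he heA h1 h0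
  intro L _ _ _ _ _ _ _ π hπ hL hi hf
  obtain ⟨y, hy, hky⟩ := hker L π hπ hL hi hf
  refine ⟨algebraMap R K (nm y)⁻¹ • y, fun b hb => ?_⟩
  obtain ⟨c, hc⟩ := hD b hb
  have h2 : π k (algebraMap R K (nm y)⁻¹ • y) = 0 := by rw [map_smul, hky, smul_zero]
  rw [hdet L π hπ b hb c hc _ _ h2 h2, hc ξ ξ hk hk, ip_self_one hξ,
    ip_self_one (nm_normalize hy)]

end Vale.Agent.P070Z72
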